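import Vale.Agent.Lib.P355.Main

/-!
Third-moment inequality for `m` mutually unbiased orthonormal bases of `ℂ^d`, given as the
columns of unitary matrices `u j`.  The entry `((u j)ᴴ * u l) a b` is the inner product of the
column `a` of `u j` with the column `b` of `u l`.
-/

namespace Vale.Agent.Results.P355.A_third_moment

open Matrix

theorem result {d m : ℕ} (hd : d ≠ 0) (u : Fin m → Matrix (Fin d) (Fin d) ℂ)
    (hU : ∀ j, (u j)ᴴ * u j = 1)
    (hM : ∀ j l, j ≠ l → ∀ a b, ‖((u j)ᴴ * u l) a b‖ ^ 2 = 1 / (d : ℝ)) :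
    -(((d : ℝ) + 1 - m) * ((d : ℝ) - m) * ((d : ℝ) - 1 - m)) ≤
      ∑ j, ∑ l, ∑ n, if j ≠ l ∧ l ≠ n ∧ n ≠ j then
        ∑ a, ∑ b, ∑ c,
          ((((u j)ᴴ * u l) a b * ((u l)ᴴ * u n) b c * ((u n)ᴴ * u j) c a) ^ 2).re
        else 0 :=
  Vale.Agent.Lib.P355.third_moment_ineq hU hM hd

end Vale.Agent.Results.P355.A_third_moment
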